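import Crest.Agent.X212.Anb49.Flag
import Crest.Agent.X212.Srf12.Defs
import Crest.Agent.R105.Iod1_690
import Crest.Agent.R096.Cx3_609

/-!
# X212 / T layer / G-ANB (helper49), part 2: charts of the triple `(M, dM, Γ)`
-/

set_option autoImplicit false

open Set Metric Topology Filter

namespace Crest.Agent.X212.Anb49

open Crest.Agent.R096 Crest.Agent.R096.Ce_537
open Crest.Agent.R096.Str_696 (AffAt Sg Conic)
open Crest.Agent.X212.Prd34 (V up fl Mf)
open Crest.Agent.X212.Thk1 Crest.Agent.X212.Srf12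

/-- a point of the axis -/
def ax (t : ℝ) : V := ![0, t, 0]

theorem ax_eq {y : V} (h0 : y 0 = 0) (h2 : y 2 = 0) : y = ax (y 1) := by
  ext i; fin_cases i <;> simp [ax, h0, h2]

theorem mem_cb {s r : ℝ} (hr : 0 < r) {y : V} :
    y ∈ closedBall (ax s) r ↔ |y 0| ≤ r ∧ |y 1 - s| ≤ r ∧ |y 2| ≤ r := by
  rw [mem_closedBall, dist_pi_le_iff hr.le, Fin.forall_fin_succ, Fin.forall_fin_two]
  simp [ax, Real.dist_eq]

theorem pl_vec {E : Type*} [NormedAddCommGroup E] [NormedSpace ℝ E] {K : Set E} {a b c : E → ℝ}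
    (ha : PLOn a K) (hb : PLOn b K) (hc : PLOn c K) : PLOn (fun x => (![a x, b x, c x] : V)) K :=
  pl_pi fun i => by fin_cases i <;> simpa

theorem loop_cont {Γ : Set V} {γ : ℝ → V} (h : Loop Γ γ) : Continuous γ :=
  continuous_iff_continuousAt.2 fun t => (h.pl (|t| + 1)).1.continuousAt
    (Icc_mem_nhds (by linarith [neg_abs_le t]) (by linarith [le_abs_self t]))

theorem lpl_of {E F : Type*} [NormedAddCommGroup E] [NormedSpace ℝ E] [NormedAddCommGroup F]
    [NormedSpace ℝ F] {f : E → F} {K : Set E} (h : PLOn f K) {x : E} (hx : K ∈ 𝓝 x) :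
    Str_696.LocPL f {x} := by
  rintro _ rfl
  obtain ⟨r, hr, hb⟩ := Metric.mem_nhds_iff.1 hx
  obtain ⟨h1, S, h2⟩ := h.mono hb
  exact ⟨r, hr, S, h1, h2⟩

theorem th_inj {p q a b : ℝ} (hp : 0 < p) (hq : q < 0)
    (h : p * max a 0 + q * max (-a) 0 = p * max b 0 + q * max (-b) 0) : a = b := by
  have key : StrictMono fun a : ℝ => p * max a 0 + q * max (-a) 0 := fun a b hab => by
    rcases le_total 0 a with ha | ha <;> rcases le_total 0 b with hb | hb
    · simp only [max_eq_left ha, max_eq_left hb, max_eq_right (neg_nonpos.2 ha),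
        max_eq_right (neg_nonpos.2 hb)]
      nlinarith
    · linarith
    · simp only [max_eq_right ha, max_eq_left hb, max_eq_left (neg_nonneg.2 ha),
        max_eq_right (neg_nonpos.2 hb)]
      rcases ha.lt_or_eq with h | h
      · nlinarith [mul_nonneg hp.le hb, mul_pos_of_neg_of_neg hq h]
      · subst h; nlinarith [mul_pos hp hab]
    · simp only [max_eq_right ha, max_eq_right hb, max_eq_left (neg_nonneg.2 ha),
        max_eq_left (neg_nonneg.2 hb)]
      nlinarith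
  exact key.injective h

/-- a chart of the triple along the axis -/
structure Gc (M dM Γ : Set V) (γ : ℝ → V) where
  s : ℝ
  r : ℝ
  hr : 0 < r
  B : Set V
  e : PLEquiv (closedBall (ax s) r) B
  hM : ∀ y ∈ closedBall (ax s) r, (e.f y ∈ M ↔ 0 ≤ y 2)
  hd : ∀ y ∈ closedBall (ax s) r, (e.f y ∈ dM ↔ y 2 = 0)
  hΓ : ∀ y ∈ closedBall (ax s) r, e.f y ∈ Γ → y 0 = 0
  ha : ∀ t, ax t ∈ closedBall (ax s) r → e.f (ax t) = γ t

variable {M dM Γ : Set V} {γ : ℝ → V}

/-- charts exist -/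
theorem exists_gc0 (hM : Mf M dM) (hΓ : Γ ⊆ dM) (hγ : Loop Γ γ) (s : ℝ) :
    ∃ k : Gc M dM Γ γ, k.s = s := by
  have mΓ : ∀ t, γ t ∈ Γ := fun t => hγ.img ▸ mem_range_self t
  obtain ⟨B, e, e0, hB, eM, ed⟩ := hM.2.2 (γ s) (hΓ (mΓ s))
  have hc := loop_cont hγ
  have z3 : (0 : V) ∈ cube 3 := mem_closedBall_self zero_le_one
  have n1 : γ ⁻¹' B ∩ Icc (-(|s| + 1)) (|s| + 1) ∈ 𝓝 s := inter_mem (hc.continuousAt hB)
    (Icc_mem_nhds (by linarith [neg_abs_le s]) (by linarith [le_abs_self s]))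
  have l1 : Str_696.LocPL (fun t => e.g (γ t)) {s} :=
    lpl_of (e.pg.comp ((hγ.pl _).mono inter_subset_right) fun t ht => ht.1) n1
  obtain ⟨r₁, S, H, hr₁, hH, hh⟩ := l1.conic (mem_singleton s)
  obtain ⟨r₂, hr₂, hb⟩ := Metric.mem_nhds_iff.1 n1
  set δ := min (min r₁ r₂) (1 / 2) with hδ
  have δ0 : 0 < δ := lt_min (lt_min hr₁ hr₂) (by norm_num)
  have δ1 : δ ≤ 1 / 2 := min_le_right _ _
  have g0 : e.g (γ s) = 0 := by rw [← e0, e.li _ z3]
  have inB : ∀ τ, |τ| < δ → γ (s + τ) ∈ B := fun τ hτ => (hb (by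
    simpa using hτ.trans_le ((min_le_left _ _).trans (min_le_right _ _)))).1
  have eH : ∀ τ, |τ| < δ → e.g (γ (s + τ)) = H τ := fun τ hτ => by
    have := hh τ (hτ.trans_le ((min_le_left _ _).trans (min_le_left _ _)))
    rwa [g0, zero_add] at this
  have H2 : ∀ τ, |τ| < δ → H τ 2 = 0 := fun τ hτ => by
    obtain ⟨y, hy, hy'⟩ := ed.le ⟨inB τ hτ, hΓ (mΓ _)⟩
    rw [← eH τ hτ, ← hy', e.li y hy.1]; exact hy.2
  have Hi : ∀ τ τ', |τ| < δ → |τ'| < δ → H τ = H τ' → τ = τ' := fun τ τ' h h' hτ => by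
    rw [← eH τ h, ← eH τ' h'] at hτ
    obtain ⟨m, hm⟩ := (hγ.fib _ _).1 (e.symm.injOn (inB τ h) (inB τ' h') hτ)
    rw [abs_lt] at h h'
    have h1 : (m : ℝ) < 1 := by linarith [h.2, h'.1]
    have h2 : (-1 : ℝ) < m := by linarith [h.1, h'.2]
    have h3 : m = 0 := by
      have h1' : m < 1 := by exact_mod_cast h1
      have h2' : -1 < m := by exact_mod_cast h2
      omega
    rw [h3] at hm
    simp only [Int.cast_zero] at hm
    linarith
  set u := H 1 with hu
  set w := H (-1) with hw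
  have Hp : ∀ τ, 0 ≤ τ → H τ = τ • u := fun τ h => by simpa using hH.homog τ 1 h
  have Hm : ∀ τ, 0 ≤ τ → H (-τ) = τ • w := fun τ h => by simpa using hH.homog τ (-1) h
  have hd2 : |δ / 2| < δ := by rw [abs_of_pos (half_pos δ0)]; linarith
  have u2 : u 2 = 0 := by
    have := H2 _ hd2
    rw [Hp _ (half_pos δ0).le] at this
    simpa [δ0.ne'] using this
  have w2 : w 2 = 0 := by
    have := H2 (-(δ / 2)) (by rwa [abs_neg])
    rw [Hm _ (half_pos δ0).le] at this
    simpa [δ0.ne'] using this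
  obtain ⟨c0, c1, hcu, hcw⟩ := exists_sep (u0 := u 0) (u1 := u 1) (w0 := w 0) (w1 := w 1)
    (fun a b ha hb h0 h1 => by
      have h2 : a • u = b • w := by
        ext i; fin_cases i
        · exact h0
        · exact h1
        · simp [u2, w2]
      set l := δ / (a + b + 1) with hl
      have hab : 0 < a + b + 1 := by linarith
      have l0 : 0 < l := div_pos δ0 hab
      have l1 : l * (a + b + 1) = δ := div_mul_cancel₀ _ hab.ne'
      have h3 := Hi (l * a) (-(l * b))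
        (by rw [abs_of_nonneg (by positivity)]; nlinarith [mul_nonneg l0.le hb])
        (by rw [abs_neg, abs_of_nonneg (by positivity)]; nlinarith [mul_nonneg l0.le ha])
        (by rw [Hp _ (by positivity), Hm _ (by positivity), mul_smul, mul_smul, h2])
      have h4 : l * (a + b) = 0 := by linarith
      have h5 := (mul_eq_zero.1 h4).resolve_left l0.ne'
      constructor <;> linarith)
  let K : V → V := fun y => ![-c1 * y 0 + (u 0 * max (y 1 - s) 0 + w 0 * max (-(y 1 - s)) 0),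
    c0 * y 0 + (u 1 * max (y 1 - s) 0 + w 1 * max (-(y 1 - s)) 0), y 2]
  have pK : PLOn K univ := by
    have p0 : ∀ i, PLOn (fun y : V => y i) univ := fun i => pl_coord (plOn_id _) i
    have p1 : PLOn (fun y : V => y 1 - s) univ := pl_sub (p0 1) (plOn_const _ _)
    have p2 := pl_max p1 (plOn_const 0 _)
    have p3 := pl_max (pl_neg p1) (plOn_const 0 _)
    exact pl_vec (pl_add (pl_mul _ (p0 0)) (pl_add (pl_mul _ p2) (pl_mul _ p3)))
      (pl_add (pl_mul _ (p0 0)) (pl_add (pl_mul _ p2) (pl_mul _ p3))) (p0 2)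
  have K2 : ∀ y, K y 2 = y 2 := fun y => rfl
  have Ka : ∀ τ, K (ax (s + τ)) = H τ := fun τ => by
    rcases le_total 0 τ with h | h
    · rw [Hp τ h]
      ext i; fin_cases i <;> simp [K, ax, h, u2, mul_comm]
    · rw [show H τ = (-τ) • w by rw [← Hm _ (neg_nonneg.2 h), neg_neg]]
      ext i; fin_cases i <;> simp [K, ax, h, w2, mul_comm]
  have Ki : Function.Injective K := fun y y' h => by
    have h0 := congrFun h 0
    have h1 := congrFun h 1
    have h2 : y 2 = y' 2 := congrFun h 2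
    simp only [K, Matrix.cons_val_zero, Matrix.cons_val_one] at h0 h1
    have h3 : (c0 * u 0 + c1 * u 1) * max (y 1 - s) 0 + (c0 * w 0 + c1 * w 1) * max (-(y 1 - s)) 0 =
        (c0 * u 0 + c1 * u 1) * max (y' 1 - s) 0 +
          (c0 * w 0 + c1 * w 1) * max (-(y' 1 - s)) 0 := by
      linear_combination c0 * h0 + c1 * h1
    have h4 : y 1 - s = y' 1 - s := th_inj hcu hcw h3
    rw [h4] at h0 h1
    have h5 : (c0 * u 0 + c1 * u 1) * (y 0 - y' 0) = 0 := by
      linear_combination u 0 * h1 - u 1 * h0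
    have h6 := (mul_eq_zero.1 h5).resolve_left hcu.ne'
    ext i; fin_cases i
    · exact sub_eq_zero.1 h6
    · exact sub_left_inj.1 h4
    · exact h2
  have K0 : K (ax s) = 0 := by simpa [hH.zero] using Ka 0
  have cK : ContinuousAt K (ax s) := pK.1.continuousAt univ_mem
  have cu : cube 3 ∈ 𝓝 (K (ax s)) := by rw [K0]; exact closedBall_mem_nhds _ one_pos
  have hZ : (γ '' Icc (s + δ / 2) (s + 1 - δ / 2))ᶜ ∈ 𝓝 (e.f (K (ax s))) := by
    refine (isCompact_Icc.image hc).isClosed.isOpen_compl.mem_nhds ?_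
    rw [K0, e0]
    rintro ⟨t, ht, h⟩
    obtain ⟨m, hm⟩ := (hγ.fib _ _).1 h
    have h1 : (m : ℝ) < 1 := by linarith [ht.2]
    have h2 : (0 : ℝ) < m := by linarith [ht.1]
    have h1' : m < 1 := by exact_mod_cast h1
    have h2' : 0 < m := by exact_mod_cast h2
    omega
  obtain ⟨r, hr, hsub⟩ := nhds_basis_closedBall.mem_iff.1 (inter_mem (inter_mem (cK cu)
    (((e.pf.1.continuousAt cu).comp cK) hZ)) (ball_mem_nhds (ax s) δ0))
  have mK : MapsTo K (closedBall (ax s) r) (cube 3) := fun y hy => (hsub hy).1.1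
  have mem : ∀ (X Y : Set V), B ∩ X = e.f '' (cube 3 ∩ Y) → ∀ y ∈ cube 3,
      (e.f y ∈ X ↔ y ∈ Y) := fun X Y h y hy => ⟨fun h1 => by
    obtain ⟨y', hy', h2⟩ := h.le ⟨e.mf hy, h1⟩
    rw [← e.injOn hy'.1 hy h2]; exact hy'.2, fun h1 => (h.ge ⟨y, ⟨hy, h1⟩, rfl⟩).2⟩
  refine ⟨⟨s, r, hr, _, Cx_609.equivOfInjOn (convex_closedBall _ _).finConv isClosed_closedBall
    (e.pf.comp (pK.mono (subset_univ _)) mK)
    (fun y hy y' hy' h => Ki (e.injOn (mK hy) (mK hy') h)),
    fun y hy => mem M up eM _ (mK hy), fun y hy => mem dM fl ed _ (mK hy),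
    fun y hy h => ?_, fun t ht => ?_⟩, rfl⟩
  · change e.f (K y) ∈ Γ at h
    obtain ⟨t, ht⟩ := hγ.img.ge h
    set m := ⌊t - (s - δ / 2)⌋ with hm
    have h1 := Int.floor_le (t - (s - δ / 2))
    have h2 := Int.lt_floor_add_one (t - (s - δ / 2))
    have h3 : γ (t - m) = e.f (K y) := ((hγ.fib _ _).2 ⟨m, by ring⟩).symm.trans ht
    have h4 : t - m < s + δ / 2 := by
      by_contra hn
      exact (hsub hy).1.2 ⟨t - m, ⟨not_lt.1 hn, by linarith⟩, h3⟩
    have h5 : |t - m - s| < δ := abs_lt.2 ⟨by linarith, by linarith⟩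
    have h6 := eH _ h5
    rw [← Ka, add_sub_cancel, h3, e.li _ (mK hy)] at h6
    rw [Ki h6]; rfl
  · change e.f (K (ax t)) = γ t
    have h1 : |t - s| < δ := by
      have := (dist_pi_lt_iff δ0).1 (hsub ht).2 1
      simpa [ax, Real.dist_eq] using this
    have h2 := inB _ h1
    have h3 := eH _ h1
    rw [← Ka] at h3
    rw [add_sub_cancel] at h2 h3
    rw [← h3, e.ri _ h2]

/-- reflection in the first coordinate -/
noncomputable def rf : V →L[ℝ] V := LinearMap.toContinuousLinearMap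
  { toFun := fun y => ![-y 0, y 1, y 2]
    map_add' := fun x y => by ext i; fin_cases i <;> simp [add_comm]
    map_smul' := fun c x => by ext i; fin_cases i <;> simp }

theorem rf_apply (y : V) : rf y = ![-y 0, y 1, y 2] := rfl

theorem rf_rf (y : V) : rf (rf y) = y := by ext i; fin_cases i <;> simp [rf_apply]

theorem rf_ax (t : ℝ) : rf (ax t) = ax t := by ext i; fin_cases i <;> simp [rf_apply, ax]

theorem rf_det : rf.det = -1 := by
  rw [det3] <;> simp [rf_apply]

theorem rf_mem {s r : ℝ} (hr : 0 < r) : MapsTo rf (closedBall (ax s) r) (closedBall (ax s) r) :=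
  fun y hy => by
    rw [mem_cb hr] at hy ⊢
    simpa [rf_apply] using hy

namespace Gc

variable (k : Gc M dM Γ γ)

/-- the reflected chart -/
noncomputable def flip : Gc M dM Γ γ where
  s := k.s
  r := k.r
  hr := k.hr
  B := k.B
  e := PLEquiv.trans ⟨rf, rf, pl_clm rf _, pl_clm rf _, rf_mem k.hr, rf_mem k.hr,
    fun y _ => rf_rf y, fun y _ => rf_rf y⟩ k.e
  hM := fun y hy => k.hM (rf y) (rf_mem k.hr hy)
  hd := fun y hy => k.hd (rf y) (rf_mem k.hr hy)
  hΓ := fun y hy h => neg_eq_zero.1 (k.hΓ (rf y) (rf_mem k.hr hy) h)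
  ha := fun t ht => by
    change k.e.f (rf (ax t)) = _
    rw [rf_ax]; exact k.ha t ht

/-- the open part -/
def O : Set V := k.e.f '' ball (ax k.s) k.r

theorem opn : IsOpen k.O := R105.Iod1_690.isOpen_image_fd rfl isOpen_ball
  (k.e.pf.1.mono ball_subset_closedBall) (k.e.injOn.mono ball_subset_closedBall)

theorem OB : k.O ⊆ k.B := by
  rintro _ ⟨y, hy, rfl⟩; exact k.e.mf (ball_subset_closedBall hy)

theorem nh {z : V} (hz : z ∈ k.O) : k.B ∈ 𝓝 z := mem_of_superset (k.opn.mem_nhds hz) k.OB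

theorem gb {z : V} (hz : z ∈ k.O) : k.e.g z ∈ ball (ax k.s) k.r := by
  obtain ⟨y, hy, rfl⟩ := hz
  rwa [k.e.li y (ball_subset_closedBall hy)]

theorem lpl : Str_696.LocPL k.e.g k.O := fun z hz => lpl_of k.e.pg (k.nh hz) z rfl

/-- the positively oriented part -/
def W : Set V := k.O ∩ Sg 1 k.e.g

theorem opnW : IsOpen k.W := k.opn.inter (Str_696.isOpen_Sg _ _)

end Gc

/-- positive charts exist -/
theorem exists_gc (hM : Mf M dM) (hΓ : Γ ⊆ dM) (hγ : Loop Γ γ) (s : ℝ) :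
    ∃ k : Gc M dM Γ γ, γ s ∈ k.W := by
  obtain ⟨k, rfl⟩ := exists_gc0 hM hΓ hγ s
  have h0 : ∀ k : Gc M dM Γ γ, γ k.s ∈ k.O := fun k =>
    ⟨_, mem_ball_self k.hr, k.ha _ (mem_closedBall_self k.hr.le)⟩
  rcases Str_696.mem_Sg k.opn k.lpl (k.e.symm.injOn.mono k.OB) (h0 k) with h | h
  · exact ⟨k, h0 k, h⟩
  · refine ⟨k.flip, h0 k.flip, ?_⟩
    filter_upwards [h] with y hy A hA
    have h1 : AffAt k.e.g y (rf.comp A) := by
      filter_upwards [hA] with z hz
      change rf (k.e.g z) = rf (k.e.g y) + _ at hz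
      rw [← rf_rf (k.e.g z), hz, map_add, rf_rf]; rfl
    have h2 := hy _ h1
    have h3 : (rf.comp A).det = rf.det * A.det := LinearMap.det_comp _ _
    rw [h3, rf_det] at h2
    linarith

end Crest.Agent.X212.Anb49
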