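import Crest.Agent.X212.Thk1.Side
import Crest.Agent.X212.Prd34.Defs
import Crest.Agent.R096.Str5_696

/-!
# X212 / T layer / G-ANB (helper49), part 1: orientation decides sides

`flag`: a positively oriented PL germ of `V` which fixes the axis and respects the floor and the
upper half space respects the two halves of the floor.
`sides'`: a coherent family of local bicollars gives a side predicate.
-/

set_option autoImplicit false

open Set Metric Topology Filter

namespace Crest.Agent.X212.Anb49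

open Crest.Agent.R096 Crest.Agent.R096.Ce_537
open Crest.Agent.R096.Str_696 (AffAt Sg Conic)
open Crest.Agent.X212.Prd34 (V)
open Crest.Agent.X212.Thk1

theorem app3 (A : V →L[ℝ] V) (v : V) (i : Fin 3) :
    A v i = v 0 * A (Pi.single 0 1) i + v 1 * A (Pi.single 1 1) i + v 2 * A (Pi.single 2 1) i := by
  have e : v = v 0 • (Pi.single 0 1 : V) + v 1 • (Pi.single 1 1 : V) +
      v 2 • (Pi.single 2 1 : V) := by
    ext j; fin_cases j <;> simp
  conv_lhs => rw [e]
  simp

theorem det3 (A : V →L[ℝ] V) (h1 : A (Pi.single 0 1) 2 = 0) (h2 : A (Pi.single 1 1) 0 = 0)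
    (h3 : A (Pi.single 1 1) 2 = 0) :
    A.det = A (Pi.single 0 1) 0 * A (Pi.single 1 1) 1 * A (Pi.single 2 1) 2 := by
  have e : A.det = (LinearMap.toMatrix' (A : V →ₗ[ℝ] V)).det :=
    (LinearMap.det_toMatrix' _).symm
  have e' : ∀ i j, LinearMap.toMatrix' (A : V →ₗ[ℝ] V) i j = A (Pi.single j 1) i := by
    intro i j
    rw [LinearMap.toMatrix'_apply]
    rfl
  rw [e, Matrix.det_fin_three]
  simp only [e', h1, h2, h3]
  ring

/-- **orientation decides sides** -/
theorem flag {φ : V → V} {p : V} (hφ : Str_696.LocPL φ {p}) (p0 : p 0 = 0) (p2 : p 2 = 0)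
    (q0 : φ p 0 = 0) (q2 : φ p 2 = 0)
    (h : ∀ᶠ y in 𝓝 p, (y 0 = 0 → y 2 = 0 → φ y - φ p = y - p) ∧ (y 2 = 0 → φ y 2 = 0) ∧
      (y 2 ≠ 0 → 0 < y 2 * φ y 2) ∧ (y 2 = 0 → φ y 0 = 0 → y 0 = 0) ∧
      ∀ A, AffAt φ y A → 0 < A.det) :
    ∀ᶠ y in 𝓝 p, y 2 = 0 → y 0 ≠ 0 → 0 < y 0 * φ y 0 := by
  obtain ⟨r₁, S, H, hr₁, hH, hh⟩ := hφ.conic (mem_singleton p)
  obtain ⟨r₂, hr₂, hb⟩ := Metric.eventually_nhds_iff_ball.1 h
  set r := min r₁ r₂ with hr
  have r0 : 0 < r := lt_min hr₁ hr₂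
  have e1 : ∀ v : V, ‖v‖ < r → φ (p + v) = φ p + H v := fun v hv =>
    hh v (hv.trans_le (min_le_left _ _))
  have e2 : ∀ v : V, ‖v‖ < r → p + v ∈ ball p r₂ := fun v hv => by
    simpa using hv.trans_le (min_le_right _ _)
  have a1 : ∀ v : V, ‖v‖ < r → v 0 = 0 → v 2 = 0 → H v = v := fun v hv h0 h2 => by
    have := (hb _ (e2 v hv)).1 (by simp [p0, h0]) (by simp [p2, h2])
    rw [e1 v hv] at this
    simpa using this
  have a2 : ∀ v : V, ‖v‖ < r → v 2 = 0 → H v 2 = 0 := fun v hv h2 => by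
    have := (hb _ (e2 v hv)).2.1 (by simp [p2, h2])
    rw [e1 v hv] at this
    simpa [q2] using this
  have a3 : ∀ v : V, ‖v‖ < r → v 2 ≠ 0 → 0 < v 2 * H v 2 := fun v hv h2 => by
    have := (hb _ (e2 v hv)).2.2.1 (by simpa [p2] using h2)
    rw [e1 v hv] at this
    simpa only [Pi.add_apply, p2, q2, zero_add] using this
  have a4 : ∀ v : V, ‖v‖ < r → v 2 = 0 → H v 0 = 0 → v 0 = 0 := fun v hv h2 h0 => by
    have := (hb _ (e2 v hv)).2.2.2.1 (by simp [p2, h2]) (by rw [e1 v hv]; simp [q0, h0])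
    simpa [p0] using this
  have key : ∀ σ : ℝ, σ * σ = 1 → ∀ v : V, ‖v‖ < r → v 2 = 0 → 0 < σ * v 0 →
      0 < σ * H v 0 := by
    intro σ hσ
    have σ0 : σ ≠ 0 := by rintro rfl; simp at hσ
    have σ1 : |σ| = 1 := by
      have := abs_mul_abs_self σ
      nlinarith [abs_nonneg σ]
    have hcv : Convex ℝ (ball (0 : V) r ∩ ({v : V | v 2 = 0} ∩ {v : V | 0 < σ * v 0})) := by
      refine (convex_ball _ _).inter (Convex.inter ?_ ?_)
      · exact convex_hyperplane (f := fun v : V => v 2) ⟨fun _ _ => rfl, fun _ _ => rfl⟩ 0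
      · exact convex_halfSpace_gt (f := fun v : V => σ * v 0)
          ⟨fun x y => by simp [mul_add], fun c x => by simp [mul_left_comm]⟩ 0
    have hc : Continuous fun v : V => σ * H v 0 :=
      continuous_const.mul ((continuous_apply 0).comp hH.cont)
    rcases hcv.isPreconnected.mapsTo_Ioi_or_Iio hc.continuousOn (b := 0) (fun v hv e => by
      have h0 := a4 v (by simpa using hv.1) hv.2.1 ((mul_eq_zero.1 e).resolve_left σ0)
      have h1 : 0 < σ * v 0 := hv.2.2
      rw [h0, mul_zero] at h1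
      exact lt_irrefl _ h1) with hs | hs
    · exact fun v hv h2 h0 => hs ⟨by simpa using hv, h2, h0⟩
    exfalso
    let F : S → Set V := fun A => {v | H v = A.1 v}
    have cF : ∀ A, IsClosed (F A) := fun A => isClosed_eq hH.cont A.1.continuous
    have hd : Dense (⋃ A, interior (F A)) := dense_iUnion_interior_of_closed cF
      (eq_univ_of_forall fun v => by
        obtain ⟨A, hA, e⟩ := hH.sel v
        exact mem_iUnion.2 ⟨⟨A, hA⟩, e⟩)
    have cov : ∀ v, ∃ A, v ∈ closure (interior (F A)) := fun v => by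
      have := hd v
      rwa [closure_iUnion_of_finite, mem_iUnion] at this
    have ZF : ∀ A, closure (interior (F A)) ⊆ F A := fun A =>
      closure_minimal interior_subset (cF A)
    let c : ℝ → V := fun ε => ![σ * ε, r / 2, 0]
    have cc : Continuous c := by
      refine continuous_pi fun i => ?_
      fin_cases i <;> simp [c] <;> fun_prop
    have cn : ∀ ε, |ε| < r → ‖c ε‖ < r := fun ε hε => by
      rw [pi_norm_lt_iff r0]
      intro i
      fin_cases i
      · simpa [c, σ1] using hε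
      · simp only [c]
        show ‖r / 2‖ < r
        rw [Real.norm_eq_abs, abs_of_pos (half_pos r0)]; linarith
      · simpa [c] using r0
    obtain ⟨A, hA⟩ : ∃ A, ∃ᶠ ε in 𝓝[>] (0 : ℝ), c ε ∈ closure (interior (F A)) := by
      by_contra hn
      push Not at hn
      obtain ⟨ε, hε⟩ := (eventually_all.2 hn).exists
      obtain ⟨A, hA⟩ := cov (c ε)
      exact hε A hA
    have hb0 : c 0 ∈ closure (interior (F A)) :=
      isClosed_closure.mem_of_frequently_of_tendsto hA
        ((cc.tendsto 0).mono_left nhdsWithin_le_nhds)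
    obtain ⟨ε, hε, hε'⟩ := (hA.and_eventually (Ioo_mem_nhdsGT r0)).exists
    have n0 : ‖c 0‖ < r := cn 0 (by simpa using r0)
    have nε : ‖c ε‖ < r := cn ε (by rw [abs_of_pos hε'.1]; exact hε'.2)
    obtain ⟨u, hu, hu2⟩ : ∃ u ∈ ball (0 : V) r ∩ interior (F A), u 2 ≠ 0 := by
      obtain ⟨u, hu⟩ := mem_closure_iff.1 hb0 (ball 0 r) isOpen_ball (by simpa using n0)
      by_cases h2 : u 2 = 0
      · have h3 : Continuous fun t : ℝ => u + t • (Pi.single 2 1 : V) := by fun_prop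
        have h4 : ∀ᶠ t in 𝓝[>] (0 : ℝ), u + t • (Pi.single 2 1 : V) ∈
            ball (0 : V) r ∩ interior (F A) :=
          ((h3.tendsto 0).mono_left nhdsWithin_le_nhds).eventually
            ((isOpen_ball.inter isOpen_interior).mem_nhds (by simpa using hu))
        obtain ⟨t, ht, ht'⟩ := (h4.and self_mem_nhdsWithin).exists
        exact ⟨_, ht, by simpa [h2] using (ne_of_gt ht')⟩
      · exact ⟨u, hu, h2⟩
    have nu : ‖u‖ < r := by simpa using hu.1
    have eu : H u = A.1 u := interior_subset (s := F A) hu.2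
    have af : AffAt H u A.1 := by
      filter_upwards [mem_interior_iff_mem_nhds.1 hu.2] with y hy
      rw [eu, ← map_add, add_sub_cancel]; exact hy
    have hp := (hb _ (e2 u nu)).2.2.2.2 _ (AffAt.of_germ e1 nu af)
    have b1 : A.1 (c 0) = c 0 := (ZF A hb0).symm.trans (a1 _ n0 (by simp [c]) (by simp [c]))
    have b2 : ∀ i, r / 2 * A.1 (Pi.single 1 1) i = c 0 i := fun i => by
      have := app3 A.1 (c 0) i
      rw [b1] at this
      rw [this]; simp [c]
    have hr2 : r / 2 ≠ 0 := (half_pos r0).ne'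
    have c0 : A.1 (Pi.single 1 1) 0 = 0 :=
      (mul_eq_zero.1 ((b2 0).trans (by simp [c]))).resolve_left hr2
    have c1 : A.1 (Pi.single 1 1) 1 = 1 :=
      mul_left_cancel₀ hr2 ((b2 1).trans (by simp [c]))
    have c2 : A.1 (Pi.single 1 1) 2 = 0 :=
      (mul_eq_zero.1 ((b2 2).trans (by simp [c]))).resolve_left hr2
    have eε : H (c ε) = A.1 (c ε) := ZF A hε
    have d2 : A.1 (Pi.single 0 1) 2 = 0 := by
      have := a2 _ nε (by simp [c])
      rw [eε, app3, c2] at this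
      simpa [c, σ0, hε'.1.ne'] using this
    have d0 : A.1 (Pi.single 0 1) 0 < 0 := by
      have h1 : σ * H (c ε) 0 < 0 := hs ⟨by simpa using nε, by simp [c], by
        show 0 < σ * (σ * ε)
        rw [← mul_assoc, hσ, one_mul]; exact hε'.1⟩
      rw [eε, app3, c0] at h1
      have h2 : σ * (σ * ε * A.1 (Pi.single 0 1) 0) < 0 := by simpa [c] using h1
      have h3 : ε * A.1 (Pi.single 0 1) 0 < 0 := by
        linear_combination h2 - (ε * A.1 (Pi.single 0 1) 0) * hσ
      exact neg_of_mul_neg_right h3 hε'.1.le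
    have d3 : 0 < A.1 (Pi.single 2 1) 2 := by
      have h1 := a3 u nu hu2
      rw [eu, app3, d2, c2, mul_zero, mul_zero, zero_add, zero_add, ← mul_assoc] at h1
      exact (mul_pos_iff_of_pos_left (mul_self_pos.2 hu2)).1 h1
    rw [det3 _ d2 c0 c2, c1, mul_one] at hp
    nlinarith [mul_pos (neg_pos.2 d0) d3]
  filter_upwards [ball_mem_nhds p r0] with y hy h2 h0
  have hv : ‖y - p‖ < r := by rwa [← dist_eq_norm]
  have e3 : φ y 0 = H (y - p) 0 := by
    have := e1 _ hv
    rw [add_sub_cancel] at this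
    rw [this]; simp [q0]
  have e4 : (y - p) 2 = 0 := by simp [h2, p2]
  have e5 : (y - p) 0 = y 0 := by simp [p0]
  rw [e3]
  rcases lt_or_gt_of_ne h0 with h1 | h1
  · have := key (-1) (by norm_num) _ hv e4 (by rw [e5]; linarith)
    nlinarith
  · have := key 1 (by norm_num) _ hv e4 (by rw [e5]; linarith)
    nlinarith

/-- a functional separating two rays in the plane -/
theorem exists_sep {u0 u1 w0 w1 : ℝ}
    (h : ∀ a b : ℝ, 0 ≤ a → 0 ≤ b → a * u0 = b * w0 → a * u1 = b * w1 → a = 0 ∧ b = 0) :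
    ∃ c0 c1 : ℝ, 0 < c0 * u0 + c1 * u1 ∧ c0 * w0 + c1 * w1 < 0 := by
  by_cases hD : u0 * w1 - u1 * w0 = 0
  · have h1 : 0 < u0 * u0 + u1 * u1 := by
      by_contra hn
      have e0 : u0 = 0 := by nlinarith [mul_self_nonneg u0, mul_self_nonneg u1]
      have e1 : u1 = 0 := by nlinarith [mul_self_nonneg u0, mul_self_nonneg u1]
      exact one_ne_zero (h 1 0 zero_le_one le_rfl (by simp [e0]) (by simp [e1])).1
    refine ⟨u0, u1, h1, ?_⟩
    by_contra hn
    exact h1.ne' (h _ _ (not_lt.1 hn) h1.le (by linear_combination u1 * hD)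
      (by linear_combination (-u0) * hD)).2
  · have h1 := mul_self_pos.2 hD
    refine ⟨(w1 + u1) * (u0 * w1 - u1 * w0), -(w0 + u0) * (u0 * w1 - u1 * w0), ?_, ?_⟩ <;>
      linarith

/-- a coherent family of local bicollars gives a side predicate -/
theorem sides' {E : Type*} [NormedAddCommGroup E] [NormedSpace ℝ E] {M N D : Set E} {ι : Type*}
    (hD : IsCompact D) (P : ι → Pc (-1) M N D) (W : ι → Set E) (hW : ∀ i, IsOpen (W i))
    (cov : ∀ x ∈ D, ∃ i, x ∈ W i) (hO : ∀ i, ∀ x ∈ W i, (P i).O ∈ 𝓝[M] x)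
    (coh : ∀ i j, ∀ x ∈ D, x ∈ W i → x ∈ W j →
      ∀ᶠ y in 𝓝[M \ D] x, 0 < ((P i).c.g y).2 * ((P j).c.g y).2) :
    ∃ S : E → Prop, ∀ x ∈ D, ∃ P : Pc (-1) M N D, P.O ∈ 𝓝[M] x ∧
      ∀ᶠ y in 𝓝[M \ D] x, (S y ↔ 0 < (P.c.g y).2) := by
  have h1 : ∀ x : D, ∃ i, ∃ ρ > 0, closedBall (x : E) ρ ⊆ W i := by
    rintro ⟨x, hx⟩
    obtain ⟨i, hi⟩ := cov x hx
    exact ⟨i, nhds_basis_closedBall.mem_iff.1 ((hW i).mem_nhds hi)⟩
  choose ix ρ hρ hb using h1
  obtain ⟨T, hT⟩ := hD.elim_nhds_subcover' (fun x hx => ball x (ρ ⟨x, hx⟩))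
    (fun x hx => ball_mem_nhds _ (hρ _))
  refine ⟨fun y => ∃ z : T, y ∈ closedBall (z.1 : E) (ρ z.1) ∧ 0 < ((P (ix z.1)).c.g y).2,
    fun x hx => ?_⟩
  obtain ⟨z, hz, hxz⟩ := mem_iUnion₂.1 (hT hx)
  have hxW : x ∈ W (ix z) := hb z (ball_subset_closedBall hxz)
  refine ⟨P (ix z), hO _ x hxW, ?_⟩
  have e1 : ∀ᶠ y in 𝓝[M \ D] x, ∀ z' : T, y ∈ closedBall (z'.1 : E) (ρ z'.1) →
      0 < ((P (ix z)).c.g y).2 * ((P (ix z'.1)).c.g y).2 := by
    rw [eventually_all]
    intro z'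
    by_cases hj : x ∈ closedBall (z'.1 : E) (ρ z'.1)
    · filter_upwards [coh _ _ x hx hxW (hb _ hj)] with y hy _
      exact hy
    · filter_upwards [nhdsWithin_le_nhds (isClosed_closedBall.isOpen_compl.mem_nhds hj)]
        with y hy hy'
      exact absurd hy' hy
  filter_upwards [e1, nhdsWithin_le_nhds (isOpen_ball.mem_nhds hxz)] with y hy hy'
  constructor
  · rintro ⟨z', h2, h3⟩
    exact (pos_iff_pos_of_mul_pos (hy z' h2)).2 h3
  · exact fun h => ⟨⟨z, hz⟩, ball_subset_closedBall hy', h⟩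

end Crest.Agent.X212.Anb49
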