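import Crest.Agent.X212.Anb49.Ch
import Crest.Agent.X212.Geo46.Defs

/-!
# X212 / T layer / G-ANB (helper49), part 3: a circle in the boundary is two-sided
-/

set_option autoImplicit false

open Set Metric Topology Filter

namespace Crest.Agent.X212.Anb49

open Crest.Agent.R096 Crest.Agent.R096.Ce_537
open Crest.Agent.R096.Str_696 (AffAt Sg Conic)
open Crest.Agent.X212.Prd34 (V P up fl Mf)
open Crest.Agent.X212.Thk1 Crest.Agent.X212.Srf12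

variable {M dM Γ : Set V} {γ : ℝ → V}

namespace Gc

variable (k : Gc M dM Γ γ)

theorem ax_mem {t : ℝ} (ht : t ∈ Icc (k.s - k.r) (k.s + k.r)) :
    ax t ∈ closedBall (ax k.s) k.r := by
  rw [mem_cb k.hr]
  refine ⟨by simpa [ax] using k.hr.le, ?_, by simpa [ax] using k.hr.le⟩
  exact abs_le.2 ⟨by simp only [ax, Matrix.cons_val_one, Matrix.cons_val_zero]; linarith [ht.1],
    by simp only [ax, Matrix.cons_val_one, Matrix.cons_val_zero]; linarith [ht.2]⟩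

theorem vec_mem {t a : ℝ} (ht : t ∈ Icc (k.s - k.r) (k.s + k.r)) (ha : a ∈ Icc (-1 : ℝ) 1) :
    (![k.r * a, t, 0] : V) ∈ closedBall (ax k.s) k.r := by
  have h := (mem_cb k.hr).1 (k.ax_mem ht)
  rw [mem_cb k.hr]
  refine ⟨?_, h.2⟩
  have := k.hr
  exact abs_le.2 ⟨by simp only [Matrix.cons_val_zero]; nlinarith [ha.1],
    by simp only [Matrix.cons_val_zero]; nlinarith [ha.2]⟩

theorem g1_mem {z : V} (hz : z ∈ k.B) : k.e.g z 1 ∈ Icc (k.s - k.r) (k.s + k.r) := by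
  have := abs_le.1 ((mem_cb k.hr).1 (k.e.mg hz)).2.1
  exact ⟨by linarith [this.1], by linarith [this.2]⟩

theorem g2 {z : V} (hz : z ∈ k.B) : z ∈ dM ↔ k.e.g z 2 = 0 := by
  rw [← k.hd _ (k.e.mg hz), k.e.ri z hz]

theorem gM {z : V} (hz : z ∈ k.B) : z ∈ M ↔ 0 ≤ k.e.g z 2 := by
  rw [← k.hM _ (k.e.mg hz), k.e.ri z hz]

theorem onax {z : V} (hz : z ∈ k.B) (h0 : k.e.g z 0 = 0) (h2 : k.e.g z 2 = 0) :
    z = γ (k.e.g z 1) := by
  rw [← k.ha _ (k.ax_mem (k.g1_mem hz)), ← ax_eq h0 h2, k.e.ri z hz]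

/-- the local bicollar of a chart -/
noncomputable def pc (hγ : Loop Γ γ) : Pc (-1) dM ∅ Γ where
  Q := (fun t => k.e.f (ax t)) '' Icc (k.s - k.r) (k.s + k.r)
  O := k.B ∩ dM
  c :=
    { f := fun q => k.e.f ![k.r * q.2, k.e.g q.1 1, 0]
      g := fun z => (k.e.f (ax (k.e.g z 1)), k.r⁻¹ * k.e.g z 0)
      pf := k.e.pf.comp (pl_vec (pl_mul _ (pl_snd' _)) (pl_coord (k.e.pg.comp (pl_fst' _) (by
          rintro ⟨_, a⟩ ⟨⟨t, ht, rfl⟩, -⟩; exact k.e.mf (k.ax_mem ht))) 1) (plOn_const 0 _)) (by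
        rintro ⟨_, a⟩ ⟨⟨t, ht, rfl⟩, ha⟩
        simp only [k.e.li _ (k.ax_mem ht)]
        exact k.vec_mem ht ha)
      pg := (pl_pair (k.e.pf.comp (pl_vec (plOn_const 0 _) (pl_coord k.e.pg 1) (plOn_const 0 _))
          fun z hz => k.ax_mem (k.g1_mem hz)) (pl_mul _ (pl_coord k.e.pg 0))).mono
        inter_subset_left
      mf := by
        rintro ⟨_, a⟩ ⟨⟨t, ht, rfl⟩, ha⟩
        simp only [k.e.li _ (k.ax_mem ht)]
        exact ⟨k.e.mf (k.vec_mem ht ha), (k.hd _ (k.vec_mem ht ha)).2 rfl⟩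
      mg := fun z hz => by
        refine ⟨⟨_, k.g1_mem hz.1, rfl⟩, ?_⟩
        have h := abs_le.1 ((mem_cb k.hr).1 (k.e.mg hz.1)).1
        have h1 := inv_pos.2 k.hr
        have h2 := inv_mul_cancel₀ k.hr.ne'
        constructor <;> simp only <;> nlinarith [h.1, h.2]
      li := by
        rintro ⟨_, a⟩ ⟨⟨t, ht, rfl⟩, ha⟩
        simp only [k.e.li _ (k.ax_mem ht)]
        rw [show ax t 1 = t from rfl, k.e.li _ (k.vec_mem ht ha)]
        simp [k.hr.ne']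
      ri := fun z hz => by
        simp only [k.e.li _ (k.ax_mem (k.g1_mem hz.1))]
        refine Eq.trans (congrArg _ ?_) (k.e.ri z hz.1)
        ext i; fin_cases i
        · simp [k.hr.ne']
        · rfl
        · exact ((k.g2 hz.1).1 hz.2).symm }
  cQ := isCompact_Icc.image_of_continuousOn
    (k.e.pf.comp (pl_vec (plOn_const 0 _) (plOn_id _) (plOn_const 0 _)) fun _ h => k.ax_mem h).1
  QD := by
    rintro _ ⟨t, ht, rfl⟩
    simp only [k.ha t (k.ax_mem ht)]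
    exact hγ.img ▸ mem_range_self t
  OA := inter_subset_right
  zero := by
    rintro _ ⟨t, ht, rfl⟩
    simp only [k.e.li _ (k.ax_mem ht), mul_zero]
    rfl
  inD := by
    rintro _ ⟨t, ht, rfl⟩ a ha h
    simp only [k.e.li _ (k.ax_mem ht)] at h
    exact (mul_eq_zero.1 (k.hΓ _ (k.vec_mem ht ha) h)).resolve_left k.hr.ne'
  inN := fun _ _ _ _ => Iff.rfl

/-- transition maps of positive charts are positive -/
theorem pos (k' : Gc M dM Γ γ) {y : V} (hy : y ∈ closedBall (ax k.s) k.r) (h : k.e.f y ∈ k.W)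
    (h' : k.e.f y ∈ k'.W) {A : V →L[ℝ] V} (hA : AffAt (fun y => k'.e.g (k.e.f y)) y A) :
    0 < A.det := by
  have e1 : ∀ᶠ z in 𝓝 (k.e.f y), AffAt (fun y => k'.e.g (k.e.f y)) (k.e.g z) A :=
    (k.e.pg.1.continuousAt (k.nh h.1)).eventually (by rw [k.e.li y hy]; exact hA.eventually)
  obtain ⟨z, ⟨A₁, h1⟩, h2, h3, h4, h5⟩ := ((k.lpl.frequently_aff h.1).and_eventually
    (e1.and ((show ∀ᶠ z in 𝓝 (k.e.f y), z ∈ k.O from k.opn.mem_nhds h.1).and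
      (Eventually.and h.2 h'.2)))).exists
  have h6 : AffAt k'.e.g z (A.comp A₁) := by
    filter_upwards [h1, k.nh h3, (k.e.pg.1.continuousAt (k.nh h3)).eventually h2] with w a b c
    simp only [k.e.ri w b, k.e.ri z (k.OB h3)] at c
    rw [c, a, add_sub_cancel_left]; rfl
  have h7 := h5 _ h6
  have h8 := h4 _ h1
  rw [show (A.comp A₁).det = A.det * A₁.det from LinearMap.det_comp _ _] at h7
  rw [one_mul] at h7 h8
  exact (mul_pos_iff_of_pos_right h8).1 h7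

/-- positive charts give the same sides -/
theorem coh (k' : Gc M dM Γ γ) (hΓ : Γ ⊆ dM) (hγ : Loop Γ γ) {x : V} (hx : x ∈ Γ)
    (h : x ∈ k.W) (h' : x ∈ k'.W) :
    ∀ᶠ z in 𝓝[dM \ Γ] x, 0 < k.e.g z 0 * k'.e.g z 0 := by
  have mΓ : ∀ t, γ t ∈ Γ := fun t => hγ.img ▸ mem_range_self t
  have g0 : ∀ k : Gc M dM Γ γ, x ∈ k.B → k.e.g x 0 = 0 := fun k hk =>
    k.hΓ _ (k.e.mg hk) (by rwa [k.e.ri x hk])
  have xB := k.OB h.1
  have xB' := k'.OB h'.1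
  set p := k.e.g x with hp
  have ep : k.e.f p = x := k.e.ri x xB
  have p0 : p 0 = 0 := g0 k xB
  have p2 : p 2 = 0 := (k.g2 xB).1 (hΓ hx)
  have q0 := g0 k' xB'
  have q2 := (k'.g2 xB').1 (hΓ hx)
  have n1 : closedBall (ax k.s) k.r ∈ 𝓝 p :=
    mem_of_superset (isOpen_ball.mem_nhds (k.gb h.1)) ball_subset_closedBall
  have n2 : k.e.f ⁻¹' (k.W ∩ k'.W) ∈ 𝓝 p :=
    k.e.pf.1.continuousAt n1 (by rw [ep]; exact (k.opnW.inter k'.opnW).mem_nhds ⟨h, h'⟩)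
  obtain ⟨m, hm⟩ := (hγ.fib _ _).1 ((k.onax xB p0 p2).symm.trans (k'.onax xB' q0 q2))
  have n3 : ∀ᶠ y in 𝓝 p, ax (y 1 - m) ∈ closedBall (ax k'.s) k'.r := by
    have hc : Continuous fun y : V => ax (y 1 - m) := by
      refine continuous_pi fun i => ?_
      fin_cases i <;> simp [ax] <;> fun_prop
    refine hc.continuousAt.eventually (mem_of_superset (isOpen_ball.mem_nhds ?_)
      ball_subset_closedBall)
    have := k'.gb h'.1
    rwa [ax_eq q0 q2, show k'.e.g x 1 = p 1 - m by linarith] at this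
  have hf := flag (φ := fun y => k'.e.g (k.e.f y)) (p := p)
    (lpl_of (k'.e.pg.comp (k.e.pf.mono inter_subset_left) fun y hy => k'.OB hy.2.2.1)
      (inter_mem n1 n2)) p0 p2 (by simpa only [ep] using q0) (by simpa only [ep] using q2) (by
    filter_upwards [n1, n2, n3] with y a b c
    have yB := k'.OB b.2.1
    refine ⟨fun h0 h2 => ?_, fun h2 => (k'.g2 yB).1 ((k.hd y a).2 h2), fun h2 => ?_,
      fun h2 h0 => ?_, fun A hA => k.pos k' a b.1 b.2 hA⟩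
    · have e1 : k.e.f y = k'.e.f (ax (y 1 - m)) := by
        rw [k'.ha _ c, ax_eq h0 h2, k.ha _ (by rwa [← ax_eq h0 h2])]
        exact (hγ.fib _ _).2 ⟨m, by simp [ax]⟩
      rw [e1, k'.e.li _ c, ep, ax_eq q0 q2, ax_eq h0 h2, ax_eq p0 p2]
      ext i; fin_cases i <;> simp [ax]
      linarith
    · have e1 := (k.hM y a).symm.trans (k'.gM yB)
      have e2 := (k.hd y a).symm.trans (k'.g2 yB)
      rcases lt_or_gt_of_ne h2 with h3 | h3
      · exact mul_pos_of_neg_of_neg h3 (not_le.1 fun h4 => h3.not_ge (e1.2 h4))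
      · exact mul_pos h3 (lt_of_le_of_ne (e1.1 h3.le) fun h4 => h2 (e2.2 h4.symm))
    · refine k.hΓ y a ?_
      rw [k'.onax yB h0 ((k'.g2 yB).1 ((k.hd y a).2 h2))]
      exact mΓ _)
  filter_upwards [nhdsWithin_le_nhds ((k.e.pg.1.continuousAt (k.nh h.1)).eventually hf),
    nhdsWithin_le_nhds (k.nh h.1), self_mem_nhdsWithin] with z a b c
  have z2 := (k.g2 b).1 c.1
  have := a z2 fun h0 => c.2 (by rw [k.onax b h0 z2]; exact mΓ _)
  rwa [k.e.ri z b] at this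

end Gc

/-- a circle in the boundary has a bicollar in the boundary -/
theorem exists_bicollar (hM : Mf M dM) (hΓ : Γ ⊆ dM) (hγ : Loop Γ γ) :
    ∃ Q : Pc (-1) dM ∅ Γ, Q.Q = Γ ∧ ∀ x ∈ Γ, Q.O ∈ 𝓝[dM] x := by
  have hc : IsCompact Γ := by
    have : Γ = γ '' Icc 0 1 := by
      rw [← hγ.img]
      refine Subset.antisymm ?_ (image_subset_range _ _)
      rintro _ ⟨t, rfl⟩
      exact ⟨Int.fract t, ⟨Int.fract_nonneg t, (Int.fract_lt_one t).le⟩,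
        ((hγ.fib _ _).2 ⟨⌊t⌋, by simp⟩).symm⟩
    rw [this]; exact isCompact_Icc.image (loop_cont hγ)
  obtain ⟨S, hS⟩ := sides' (M := dM) hc (fun k : Gc M dM Γ γ => k.pc hγ) (fun k => k.W)
    (fun k => k.opnW) (fun x hx => by
      obtain ⟨s, rfl⟩ := hγ.img.ge hx
      exact exists_gc hM hΓ hγ s)
    (fun k x hx => inter_mem (nhdsWithin_le_nhds (k.nh hx.1)) self_mem_nhdsWithin)
    (fun k k' x hx h h' => by
      filter_upwards [k.coh k' hΓ hγ hx h h'] with z hz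
      change 0 < k.r⁻¹ * k.e.g z 0 * (k'.r⁻¹ * k'.e.g z 0)
      rw [mul_mul_mul_comm]
      exact mul_pos (mul_pos (inv_pos.2 k.hr) (inv_pos.2 k'.hr)) hz)
  obtain ⟨Q, h1, -, h2, -⟩ := bicollar hc hΓ isOpen_univ (subset_univ _) S hS
  exact ⟨Q, h1, h2⟩

/-- **(ANB)** -/
theorem anbStmt : Geo46.AnbStmt := by
  intro M dM Γ γ hM hΓ hγ
  obtain ⟨Q, hQ, hO⟩ := exists_bicollar hM hΓ hγ
  have mΓ : ∀ t, γ t ∈ Q.Q := fun t => by rw [hQ, ← hγ.img]; exact mem_range_self t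
  obtain ⟨W, hW, hW1, hW2⟩ : ∃ W, IsOpen W ∧ Γ ⊆ W ∧ W ∩ dM ⊆ Q.O := by
    choose! U h1 h2 h3 using fun x hx => mem_nhdsWithin.1 (hO x hx)
    refine ⟨⋃ x ∈ Γ, U x, isOpen_biUnion h1, fun x hx => mem_biUnion hx (h2 x hx), ?_⟩
    rintro y ⟨hy, hy'⟩
    obtain ⟨x, hx, hyx⟩ := mem_iUnion₂.1 hy
    exact h3 x hx ⟨hyx, hy'⟩
  have hev : ∀ᶠ t in 𝓝 (0 : ℝ), ∀ u ∈ Q.Q, u ∈ Q.Q → t ∈ Icc (-1 : ℝ) 1 → Q.c.f (u, t) ∈ W := by
    refine Q.cQ.eventually_forall_of_forall_eventually fun u hu => ?_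
    have h1 : Q.c.f ⁻¹' W ∈ 𝓝[Q.Q ×ˢ Icc (-1) 1] (u, 0) :=
      Q.c.pf.1 (u, 0) ⟨hu, by norm_num, zero_le_one⟩
        (by rw [Q.zero u hu]; exact hW.mem_nhds (hW1 (Q.QD hu)))
    filter_upwards [(continuous_swap.tendsto ((0 : ℝ), u)).eventually
      (eventually_nhdsWithin_iff.1 h1)] with z hz h2 h3
    exact hz ⟨h2, h3⟩
  obtain ⟨ε, hε, hb⟩ := Metric.eventually_nhds_iff.1 hev
  set ρ := min ε 1 with hρ
  have ρ0 : 0 < ρ := lt_min hε one_pos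
  have ρ1 : ρ ≤ 1 := min_le_right _ _
  have mI : ∀ a : ℝ, |a| ≤ 1 → ρ * a ∈ Icc (-1 : ℝ) 1 := fun a ha => by
    rw [abs_le] at ha
    constructor <;> nlinarith [ha.1, ha.2]
  refine ⟨_, fun y => Q.c.f (γ (y 1), ρ * y 0), ⟨fun R => ?_, rfl, fun y y' hy hy' => ?_⟩, ?_,
    fun s => ?_, ?_⟩
  · exact Q.c.pf.comp (pl_pair ((hγ.pl R).comp (pl_coord (plOn_id _) 1) fun y hy => abs_le.1 hy.2)
      (pl_mul _ (pl_coord (plOn_id _) 0))) fun y hy => ⟨mΓ _, mI _ hy.1⟩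
  · constructor
    · intro h
      have := Prod.ext_iff.1 (Q.c.injOn
        (show (γ (y 1), ρ * y 0) ∈ Q.Q ×ˢ Icc (-1 : ℝ) 1 from ⟨mΓ _, mI _ hy⟩)
        (show (γ (y' 1), ρ * y' 0) ∈ Q.Q ×ˢ Icc (-1 : ℝ) 1 from ⟨mΓ _, mI _ hy'⟩) h)
      exact ⟨mul_left_cancel₀ ρ0.ne' this.2, (hγ.fib _ _).1 this.1⟩
    · rintro ⟨h1, h2⟩
      simp only [h1, (hγ.fib _ _).2 h2]
  · rintro _ ⟨y, hy, rfl⟩
    exact Q.OA (Q.c.mf ⟨mΓ _, mI _ hy⟩)
  · simpa using Q.zero _ (mΓ s)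
  · obtain ⟨U, hU, hU'⟩ := continuousOn_iff'.1 (pl_snd Q.c.pg).1 (ball 0 ρ) isOpen_ball
    refine ⟨W ∩ U, hW.inter hU, Subset.antisymm ?_ ?_⟩
    · rintro _ ⟨y, hy, rfl⟩
      have h1 : (γ (y 1), ρ * y 0) ∈ Q.Q ×ˢ Icc (-1 : ℝ) 1 := ⟨mΓ _, mI _ (le_of_lt hy)⟩
      have h2 : |ρ * y 0| < ρ := by
        rw [abs_mul, abs_of_pos ρ0]; exact mul_lt_of_lt_one_right ρ0 hy
      refine ⟨⟨hb (by simpa using h2.trans_le (min_le_left _ _)) _ h1.1 h1.1 h1.2,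
        (hU'.le ⟨?_, Q.c.mf h1⟩).1⟩, Q.OA (Q.c.mf h1)⟩
      show (Q.c.g _).2 ∈ ball 0 ρ
      rw [Q.c.li _ h1]; simpa using h2
    · rintro z ⟨⟨h1, h2⟩, h3⟩
      have h4 := hW2 ⟨h1, h3⟩
      have h5 : |(Q.c.g z).2| < ρ := by simpa using (hU'.ge ⟨h2, h4⟩).1
      obtain ⟨t, ht⟩ := hγ.img.ge (Q.QD (Q.g1 h4))
      refine ⟨![ρ⁻¹ * (Q.c.g z).2, t], ?_, ?_⟩
      · show |ρ⁻¹ * (Q.c.g z).2| < 1
        rw [abs_mul, abs_of_pos (inv_pos.2 ρ0), inv_mul_lt_iff₀ ρ0, mul_one]; exact h5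
      · show Q.c.f (γ t, ρ * (ρ⁻¹ * (Q.c.g z).2)) = z
        rw [ht, ← mul_assoc, mul_inv_cancel₀ ρ0.ne', one_mul, Q.fg h4]

end Crest.Agent.X212.Anb49
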